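import Vale.Agent.P074.Stability
import Vale.Agent.P074.Inadmissible
import Vale.Agent.P074.Third.Approx
import Vale.Agent.P074.Third.Gradient

/-!
# The stability exponent of quadratic optimal transport maps is one third

The exponent `1/3` is admissible and no larger one is, in every dimension `d ≥ 2`; with `W₁` in
place of `W₂` the largest admissible exponent is `1/4`.
-/

namespace Vale.Agent.Results.P074.StabilityExponent

open Vale.Agent.P074

theorem result : ∀ d : ℕ, 2 ≤ d →
    IsGreatest {α : ℝ | Admissible d α} (1 / 3) ∧
    IsGreatest {β : ℝ | AdmissibleW1 d β} (1 / 4) :=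
  fun d hd =>
    ⟨⟨admissible_third_of_semidiscrete (by omega) (semidiscrete_bound (by omega)),
        fun α hα => not_lt.1 fun h => not_admissible_above_third d hd α h hα⟩,
      admissibleW1_quarter (by omega),
      fun β hβ => not_lt.1 fun h => not_admissibleW1_above_quarter d hd β h hβ⟩

end Vale.Agent.Results.P074.StabilityExponent
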